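import Vale.Agent.Lib.P304.Defs

/-!
# P304: basic facts on the cost of a deterministic policy
-/

namespace Vale.Agent.Lib.P304

variable {Y : Type} [MetricSpace Y] {k : ℕ}

/-- positions of the servers after the policy `δ` has served the requests. -/
def final : (List Y → Fin k) → (Fin k → Y) → List Y → (Fin k → Y)
  | _, s, [] => s
  | δ, s, r :: σ => final (fun h => δ (r :: h)) (Function.update s (δ [r]) r) σ

theorem cost_nonneg (σ : List Y) : ∀ (δ : List Y → Fin k) (s : Fin k → Y), 0 ≤ cost δ s σ := by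
  induction σ with
  | nil => intro δ s; simp [cost]
  | cons r σ ih =>
    intro δ s
    simp only [cost]
    exact add_nonneg dist_nonneg (ih _ _)

theorem cost_congr (σ : List Y) (δ₁ δ₂ : List Y → Fin k) (s : Fin k → Y)
    (h : ∀ g, g ≠ [] → δ₁ g = δ₂ g) : cost δ₁ s σ = cost δ₂ s σ := by
  cases σ with
  | nil => simp [cost]
  | cons r σ =>
    have h1 : δ₁ [r] = δ₂ [r] := h _ (by simp)
    have h2 : (fun g => δ₁ (r :: g)) = (fun g => δ₂ (r :: g)) := by
      funext g
      exact h _ (by simp)
    simp only [cost, h1, h2]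

theorem cost_append (σ₁ : List Y) : ∀ (δ : List Y → Fin k) (s : Fin k → Y) (σ₂ : List Y),
    cost δ s (σ₁ ++ σ₂) = cost δ s σ₁ + cost (fun h => δ (σ₁ ++ h)) (final δ s σ₁) σ₂ := by
  induction σ₁ with
  | nil => intro δ s σ₂; simp [cost, final]
  | cons r σ₁ ih =>
    intro δ s σ₂
    simp only [List.cons_append, cost, final]
    rw [ih]
    ring_nf

end Vale.Agent.Lib.P304
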