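import Vale.Agent.Lib.P304.Sim

/-!
# P304: the amortised inequality for one block
-/

namespace Vale.Agent.Lib.P304

variable {X : Type} [MetricSpace X] (x0 : X) {n : ℕ}

/-- the amortised inequality for one block. -/
theorem block_ineq (r : X) (m : ℕ) : ∀ (δ : List (Ext x0) → Fin (n + 2))
    (τ : Equiv.Perm (Fin (n + 2))) (y v : Fin (n + 2) → Ext x0) (K : ℝ), 0 ≤ K →
    y (Fin.last (n + 1)) = pt x0 → 2 * dist (y 0) (inX x0 r) ≤ K + m →
    dist (y (scan x0 r m δ τ).1) (inX x0 r) +
      pot (scan x0 r m δ τ).2 (Function.update y (scan x0 r m δ τ).1 (inX x0 r))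
        (final δ v (block x0 r m)) ≤ pot τ y v + cost δ v (block x0 r m) + K := by
  induction m with
  | zero =>
    intro δ τ y v K hK hy hm
    simp only [scan, block, final, cost]
    have := pot_default τ y v 0 (inX x0 r)
    simp only [Nat.cast_zero, add_zero] at hm
    linarith
  | succ m ih =>
    intro δ τ y v K hK hy hm
    set j := δ [inX x0 r] with hj
    set b := δ [inX x0 r, pt x0] with hb
    set l := Fin.last (n + 1) with hl
    set v1 := Function.update v j (inX x0 r) with hv1
    set v2 := Function.update v1 b (pt x0) with hv2
    set δ2 : List (Ext x0) → Fin (n + 2) := fun h => δ (inX x0 r :: pt x0 :: h) with hδ2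
    have hfinal : final δ v (block x0 r (m + 1)) = final δ2 v2 (block x0 r m) := by
      simp only [block, final]
      rfl
    have hcost : cost δ v (block x0 r (m + 1))
        = dist (v j) (inX x0 r) + (dist (v1 b) (pt x0) + cost δ2 v2 (block x0 r m)) := by
      simp only [block, cost]
      rfl
    have hs1 := pot_step τ y v j (inX x0 r)
    rw [hfinal, hcost]
    by_cases h1 : j ≠ τ l
    · -- a matched virtual server serves `r`
      have hscan : scan x0 r (m + 1) δ τ = (τ.symm j, τ) := by
        simp only [scan]
        rw [if_pos h1]
      rw [hscan]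
      simp only
      have hjump := pot_jump τ y v1 (τ.symm j) (inX x0 r) (by simp [hv1])
      have hs2 := pot_step τ (Function.update y (τ.symm j) (inX x0 r)) v1 b (pt x0)
      have hrun := pot_run τ (Function.update y (τ.symm j) (inX x0 r)) (block x0 r m) δ2 v2
      linarith
    · push_neg at h1
      by_cases h2 : b ≠ τ l
      · have hscan : scan x0 r (m + 1) δ τ = (τ.symm b, τ * Equiv.swap (τ.symm b) l) := by
          simp only [scan]
          rw [if_neg (by simpa using h1), if_pos h2]
        rw [hscan]
        simp only
        have hs2 := pot_step τ y v1 b (pt x0)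
        have hswap := pot_swap τ y v2 (τ.symm b) l (pt x0) (by simp [hv2]) hy
        have hbj : j ≠ b := by
          rw [h1]; exact fun h => h2 h.symm
        have hjump := pot_jump (τ * Equiv.swap (τ.symm b) l) y v2 (τ.symm b) (inX x0 r) (by
          rw [Equiv.Perm.mul_apply, Equiv.swap_apply_left, ← h1, hv2,
            Function.update_of_ne hbj, hv1, Function.update_self])
        have hrun := pot_run (τ * Equiv.swap (τ.symm b) l)
          (Function.update y (τ.symm b) (inX x0 r)) (block x0 r m) δ2 v2
        linarith
      · push_neg at h2
        have hscan : scan x0 r (m + 1) δ τ = scan x0 r m δ2 τ := by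
          simp only [scan]
          rw [if_neg (by simpa using h1), if_neg (by simpa using h2)]
        rw [hscan]
        have hih := ih δ2 τ y v2 (K + 1) (by linarith) hy (by push_cast at hm; linarith)
        have hv2' : v2 = Function.update v (τ l) (pt x0) := by
          rw [hv2, hv1, h1, h2, Function.update_idem]
        have hret := pot_return τ y v l (pt x0) hy
        rw [← hv2'] at hret
        have hone : 1 ≤ dist (v1 b) (pt x0) := by
          rw [hv1, h2, h1, Function.update_self]
          exact one_le_dist_inX_pt x0 r
        have hnn : 0 ≤ dist (v j) (inX x0 r) := dist_nonneg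
        linarith

end Vale.Agent.Lib.P304
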