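import Mathlib

/-!
# P304: the randomized k-server problem, definitions
-/

namespace Vale.Agent.Lib.P304

open MeasureTheory

/-- Total movement of a service: the list gives the requests in order, each paired with the
server that is moved to it; `s` are the current positions of the `k` labeled servers. -/
def serveCost {X : Type} [MetricSpace X] {k : ℕ} : (Fin k → X) → List (X × Fin k) → ℝ
  | _, [] => 0
  | s, (r, j) :: l => dist (s j) r + serveCost (Function.update s j r) l

/-- `OPT_s(σ)`: the least total movement of a service of the request sequence `σ`. -/
noncomputable def opt {X : Type} [MetricSpace X] {k : ℕ} (s : Fin k → X) (σ : List X) : ℝ :=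
  ⨅ l : {l : List (X × Fin k) // l.map Prod.fst = σ}, serveCost s l.1

/-- Cost of a deterministic online policy `δ` on the request sequence: `δ h` is the server moved
to the current request when `h` is the list of all requests received so far (in order, the
current request last). -/
def cost {X : Type} [MetricSpace X] {k : ℕ} : (List X → Fin k) → (Fin k → X) → List X → ℝ
  | _, _, [] => 0
  | δ, s, r :: σ =>
    dist (s (δ [r])) r + cost (fun h => δ (r :: h)) (Function.update s (δ [r]) r) σ

/-- A randomized online policy: a probability space (the policy's own randomness) and, for each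
outcome, a deterministic online policy; every single decision is a measurable function of the
outcome. -/
structure RandPolicy (X : Type) (k : ℕ) where
  Ω : Type
  mΩ : MeasurableSpace Ω
  μ : Measure Ω
  prob : IsProbabilityMeasure μ
  pol : Ω → List X → Fin k
  meas : ∀ h : List X, Measurable (fun ω => pol ω h)

/-- Expected cost of a randomized policy on a fixed request sequence (oblivious adversary). -/
noncomputable def RandPolicy.expCost {X : Type} [MetricSpace X] {k : ℕ} (A : RandPolicy X k)
    (s : Fin k → X) (σ : List X) : ENNReal :=
  @lintegral A.Ω A.mΩ A.μ (fun ω => ENNReal.ofReal (cost (A.pol ω) s σ))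

/-- `A` is `c`-competitive on `(X, d, s)`. -/
def IsCompetitive {X : Type} [MetricSpace X] {k : ℕ} (A : RandPolicy X k) (s : Fin k → X)
    (c : ℝ) : Prop :=
  ∃ B : ℝ, ∀ σ : List X, A.expCost s σ ≤ ENNReal.ofReal (c * opt s σ + B)

/-- `ρ(X, d, s)`: the infimum of the `c ≥ 0` for which some randomized policy is
`c`-competitive. -/
noncomputable def rho {X : Type} [MetricSpace X] {k : ℕ} (s : Fin k → X) : ENNReal :=
  ⨅ (c : NNReal) (_ : ∃ A : RandPolicy X k, IsCompetitive A s c), (c : ENNReal)

/-- `R(k)`: the supremum of `ρ(X, d, s)` over all metric spaces with at least `k + 1` points and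
all initial positions. -/
noncomputable def R (k : ℕ) : ENNReal :=
  ⨆ (X : Type) (_ : MetricSpace X) (_ : ∃ f : Fin (k + 1) → X, Function.Injective f)
    (s : Fin k → X), rho s

end Vale.Agent.Lib.P304
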