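import Vale.Agent.Lib.P304.Defs

/-!
# P304: adding one point `p` to a metric space, at distance `1 + dist x0 x` from `x`
-/

namespace Vale.Agent.Lib.P304

/-- The space `X` with one extra point `none`. -/
def Ext {X : Type} (_x0 : X) : Type := Option X

variable {X : Type} [MetricSpace X] (x0 : X)

/-- distance on `Ext x0`. -/
noncomputable def extDist : Option X → Option X → ℝ
  | none, none => 0
  | none, some x => 1 + dist x0 x
  | some x, none => 1 + dist x0 x
  | some x, some y => dist x y

noncomputable instance : MetricSpace (Ext x0) where
  dist := extDist x0
  dist_self a := by
    cases a <;> simp [extDist]
  dist_comm a b := by
    cases a <;> cases b <;> simp [extDist, dist_comm]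
  dist_triangle a b c := by
    cases a with
    | none =>
      cases b with
      | none => cases c <;> simp [extDist]
      | some y =>
        cases c with
        | none =>
          simp only [extDist]
          have := dist_nonneg (x := x0) (y := y)
          linarith
        | some z =>
          simp only [extDist]
          have := dist_triangle x0 y z
          linarith
    | some x =>
      cases b with
      | none =>
        cases c with
        | none => simp [extDist]
        | some z =>
          simp only [extDist]
          have := dist_triangle x x0 z
          have h2 := dist_comm x x0
          linarith
      | some y =>
        cases c with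
        | none =>
          simp only [extDist]
          have := dist_triangle x0 y x
          have h2 := dist_comm x y
          have h3 := dist_triangle x0 x y
          linarith
        | some z =>
          simp only [extDist]
          exact dist_triangle x y z
  eq_of_dist_eq_zero := by
    intro a b h
    cases a with
    | none =>
      cases b with
      | none => rfl
      | some y =>
        simp only [extDist] at h
        have := dist_nonneg (x := x0) (y := y)
        linarith
    | some x =>
      cases b with
      | none =>
        simp only [extDist] at h
        have := dist_nonneg (x := x0) (y := x)
        linarith
      | some y =>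
        simp only [extDist] at h
        exact congrArg some (eq_of_dist_eq_zero h)

/-- the point of `X` seen in `Ext x0`. -/
def inX (x : X) : Ext x0 := some x

/-- the extra point. -/
def pt : Ext x0 := none

@[simp] theorem dist_inX (x y : X) : dist (inX x0 x) (inX x0 y) = dist x y := rfl

@[simp] theorem dist_pt_inX (x : X) : dist (pt x0) (inX x0 x) = 1 + dist x0 x := rfl

@[simp] theorem dist_inX_pt (x : X) : dist (inX x0 x) (pt x0) = 1 + dist x0 x := rfl

theorem one_le_dist_inX_pt (x : X) : 1 ≤ dist (inX x0 x) (pt x0) := by
  rw [dist_inX_pt]
  have := dist_nonneg (x := x0) (y := x)
  linarith

theorem inX_injective : Function.Injective (inX x0) := fun _ _ h => Option.some.inj h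

theorem inX_ne_pt (x : X) : inX x0 x ≠ pt x0 := Option.some_ne_none x

end Vale.Agent.Lib.P304
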