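import Vale.Agent.Lib.P304.Sim

/-!
# P304: every decision of the simulating policy is measurable
-/

namespace Vale.Agent.Lib.P304

/-- all fibres of `f` are measurable sets -/
def FM {Ω α : Type} [MeasurableSpace Ω] (f : Ω → α) : Prop := ∀ a, MeasurableSet (f ⁻¹' {a})

theorem FM.setOf {Ω α : Type} [MeasurableSpace Ω] [Countable α] {f : Ω → α} (hf : FM f)
    (P : α → Prop) : MeasurableSet {ω | P (f ω)} := by
  have : {ω | P (f ω)} = ⋃ a ∈ {a | P a}, f ⁻¹' {a} := by
    ext ω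
    simp
  rw [this]
  exact MeasurableSet.biUnion (Set.to_countable _) (fun a _ => hf a)

theorem FM.comp {Ω α β : Type} [MeasurableSpace Ω] [Countable α] {f : Ω → α} (hf : FM f)
    (F : α → β) : FM (fun ω => F (f ω)) := fun b => hf.setOf (fun a => F a = b)

theorem FM.prod {Ω α β : Type} [MeasurableSpace Ω] {f : Ω → α} {g : Ω → β} (hf : FM f)
    (hg : FM g) : FM (fun ω => (f ω, g ω)) := by
  rintro ⟨a, b⟩
  have : (fun ω => (f ω, g ω)) ⁻¹' {(a, b)} = f ⁻¹' {a} ∩ g ⁻¹' {b} := by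
    ext ω
    simp [Prod.ext_iff]
  rw [this]
  exact (hf a).inter (hg b)

theorem FM.ite {Ω α : Type} [MeasurableSpace Ω] {p : Ω → Prop} [∀ ω, Decidable (p ω)]
    (hp : MeasurableSet {ω | p ω}) {f g : Ω → α} (hf : FM f) (hg : FM g) :
    FM (fun ω => if p ω then f ω else g ω) := by
  intro a
  have : (fun ω => if p ω then f ω else g ω) ⁻¹' {a}
      = ({ω | p ω} ∩ f ⁻¹' {a}) ∪ ({ω | p ω}ᶜ ∩ g ⁻¹' {a}) := by
    ext ω
    by_cases h : p ω <;> simp [h]
  rw [this]
  exact (hp.inter (hf a)).union (hp.compl.inter (hg a))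

theorem FM.measurable {Ω α : Type} [MeasurableSpace Ω] [MeasurableSpace α] [Countable α]
    {f : Ω → α} (hf : FM f) : Measurable f := measurable_to_countable' hf

theorem FM.of_measurable {Ω α : Type} [MeasurableSpace Ω] [MeasurableSpace α]
    [MeasurableSingletonClass α] {f : Ω → α} (hf : Measurable f) : FM f :=
  fun a => hf (measurableSet_singleton a)

variable {X : Type} [MetricSpace X] (x0 : X) {n : ℕ}

theorem fm_scan {Ω : Type} [MeasurableSpace Ω] (r : X) (m : ℕ) :
    ∀ (δ : Ω → List (Ext x0) → Fin (n + 2)) (τ : Ω → Equiv.Perm (Fin (n + 2))),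
    (∀ g, FM (fun ω => δ ω g)) → FM τ → FM (fun ω => scan x0 r m (δ ω) (τ ω)) := by
  induction m with
  | zero =>
    intro δ τ _ hτ
    simp only [scan]
    exact hτ.comp (fun t => ((0 : Fin (n + 2)), t))
  | succ m ih =>
    intro δ τ hδ hτ
    simp only [scan]
    have hu := ((hδ [inX x0 r]).prod (hδ [inX x0 r, pt x0])).prod hτ
    refine FM.ite ?_ ?_ (FM.ite ?_ ?_ ?_)
    · exact hu.setOf (fun u => u.1.1 ≠ u.2 (Fin.last (n + 1)))
    · exact hu.comp (fun u => (u.2.symm u.1.1, u.2))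
    · exact hu.setOf (fun u => u.1.2 ≠ u.2 (Fin.last (n + 1)))
    · exact hu.comp (fun u => (u.2.symm u.1.2,
        u.2 * Equiv.swap (u.2.symm u.1.2) (Fin.last (n + 1))))
    · exact ih (fun ω h => δ ω (inX x0 r :: pt x0 :: h)) τ (fun g => hδ _) hτ

theorem fm_sim {Ω : Type} [MeasurableSpace Ω] (h : List X) :
    ∀ (δ : Ω → List (Ext x0) → Fin (n + 2)) (τ : Ω → Equiv.Perm (Fin (n + 2))) (L : List X),
    (∀ g, FM (fun ω => δ ω g)) → FM τ → FM (fun ω => sim x0 (δ ω) (τ ω) L h) := by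
  induction h with
  | nil =>
    intro δ τ L _ hτ
    simp only [sim]
    exact hτ.comp (fun _ => (0 : Fin (n + 1)))
  | cons r t ih =>
    intro δ τ L hδ hτ
    cases t with
    | nil =>
      simp only [sim]
      exact (fm_scan x0 r (mult L r) δ τ hδ hτ).comp (fun u => toK u.1)
    | cons r2 t' =>
      simp only [sim]
      exact ih (fun ω g => δ ω (block x0 r (mult L r) ++ g))
        (fun ω => (scan x0 r (mult L r) (δ ω) (τ ω)).2) (r :: L) (fun g => hδ _)
        ((fm_scan x0 r (mult L r) δ τ hδ hτ).comp (fun u => u.2))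

theorem measurable_sim {Ω : Type} [MeasurableSpace Ω] (h : List X) :
    ∀ (δ : Ω → List (Ext x0) → Fin (n + 2)) (τ : Ω → Equiv.Perm (Fin (n + 2))) (L : List X),
    (∀ g, Measurable (fun ω => δ ω g)) → (∀ π, MeasurableSet (τ ⁻¹' {π})) →
    Measurable (fun ω => sim x0 (δ ω) (τ ω) L h) := by
  intro δ τ L hδ hτ
  exact (fm_sim x0 h δ τ L (fun g => FM.of_measurable (hδ g)) hτ).measurable

end Vale.Agent.Lib.P304
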