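import Vale.Agent.Lib.P304.Sim

/-!
# P304: the optimum on the extended space is at most the optimum on `X`
-/

namespace Vale.Agent.Lib.P304

theorem serveCost_nonneg {Y : Type} [MetricSpace Y] {k : ℕ} (l : List (Y × Fin k)) :
    ∀ s : Fin k → Y, 0 ≤ serveCost s l := by
  induction l with
  | nil => intro s; simp [serveCost]
  | cons a l ih =>
    intro s
    obtain ⟨r, j⟩ := a
    simp only [serveCost]
    exact add_nonneg dist_nonneg (ih _)

variable {X : Type} [MetricSpace X] (x0 : X) {n : ℕ}

/-- the service of a block: server `j` stays at `r`, the extra server stays at the extra point. -/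
def blockS (r : X) (j : Fin (n + 1)) : ℕ → List (Ext x0 × Fin (n + 2))
  | 0 => []
  | m + 1 => (inX x0 r, j.castSucc) :: (pt x0, Fin.last (n + 1)) :: blockS r j m

/-- the lifted service. -/
noncomputable def liftS : List X → List (X × Fin (n + 1)) → List (Ext x0 × Fin (n + 2))
  | _, [] => []
  | L, (r, j) :: l => blockS x0 r j (mult L r) ++ liftS (r :: L) l

omit [MetricSpace X] in
theorem map_fst_blockS (r : X) (j : Fin (n + 1)) (m : ℕ) :
    (blockS x0 r j m).map Prod.fst = block x0 r m := by
  induction m with
  | zero => rfl
  | succ m ih => simp only [blockS, block, List.map_cons, ih]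

theorem map_fst_liftS (l : List (X × Fin (n + 1))) :
    ∀ L : List X, (liftS x0 L l).map Prod.fst = expand x0 L (l.map Prod.fst) := by
  induction l with
  | nil => intro L; rfl
  | cons a l ih =>
    intro L
    obtain ⟨r, j⟩ := a
    simp only [liftS, expand, List.map_cons, List.map_append, map_fst_blockS, ih]

theorem serveCost_blockS_fixed (r : X) (j : Fin (n + 1)) (v : Fin (n + 2) → Ext x0)
    (hj : v j.castSucc = inX x0 r) (hl : v (Fin.last (n + 1)) = pt x0)
    (rest : List (Ext x0 × Fin (n + 2))) (m : ℕ) :
    serveCost v (blockS x0 r j m ++ rest) = serveCost v rest := by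
  induction m with
  | zero => rfl
  | succ m ih =>
    have e1 : Function.update v j.castSucc (inX x0 r) = v := by
      rw [← hj]; exact Function.update_eq_self _ _
    have e2 : Function.update v (Fin.last (n + 1)) (pt x0) = v := by
      rw [← hl]; exact Function.update_eq_self _ _
    simp only [blockS, List.cons_append, serveCost]
    rw [e1, e2, ih, hj, hl, dist_self, dist_self]
    ring

theorem serveCost_blockS_succ (r : X) (j : Fin (n + 1)) (s : Fin (n + 1) → X)
    (rest : List (Ext x0 × Fin (n + 2))) (m : ℕ) :
    serveCost (ext x0 s) (blockS x0 r j (m + 1) ++ rest)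
      = dist (s j) r + serveCost (ext x0 (Function.update s j r)) rest := by
  have hl : ext x0 (Function.update s j r) (Fin.last (n + 1)) = pt x0 := ext_last _ _
  have hj : ext x0 (Function.update s j r) j.castSucc = inX x0 r := by
    rw [ext_castSucc, Function.update_self]
  have e2 : Function.update (ext x0 (Function.update s j r)) (Fin.last (n + 1)) (pt x0)
      = ext x0 (Function.update s j r) := by
    conv_lhs => rw [← hl]
    exact Function.update_eq_self _ _
  simp only [blockS, List.cons_append, serveCost]
  rw [← ext_update, e2, hl, dist_self, ext_castSucc, dist_inX,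
    serveCost_blockS_fixed x0 r j _ hj hl rest m]
  ring

theorem serveCost_liftS (l : List (X × Fin (n + 1))) :
    ∀ (s : Fin (n + 1) → X) (L : List X), serveCost (ext x0 s) (liftS x0 L l) = serveCost s l := by
  induction l with
  | nil => intro s L; rfl
  | cons a l ih =>
    intro s L
    obtain ⟨r, j⟩ := a
    simp only [liftS, serveCost, mult]
    rw [serveCost_blockS_succ, ih]

/-- Keeping the extra server at the extra point, every service of `σ` gives a service of the
expanded sequence with the same cost. -/
theorem opt_expand_le (s : Fin (n + 1) → X) (L σ : List X) :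
    opt (ext x0 s) (expand x0 L σ) ≤ opt s σ := by
  unfold opt
  have : Nonempty {l : List (X × Fin (n + 1)) // l.map Prod.fst = σ} :=
    ⟨⟨σ.map (fun r => (r, 0)), by simp [List.map_map, Function.comp_def]⟩⟩
  refine le_ciInf (fun l => ?_)
  have hb : BddBelow (Set.range
      (fun l : {l : List (Ext x0 × Fin (n + 2)) // l.map Prod.fst = expand x0 L σ} =>
        serveCost (ext x0 s) l.1)) :=
    ⟨0, by rintro _ ⟨l, rfl⟩; exact serveCost_nonneg _ _⟩
  refine (ciInf_le hb ⟨liftS x0 L l.1, by rw [map_fst_liftS, l.2]⟩).trans_eq ?_
  exact serveCost_liftS x0 l.1 s L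

end Vale.Agent.Lib.P304
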