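import Vale.Agent.Lib.P304.SimCost
import Vale.Agent.Lib.P304.Opt
import Vale.Agent.Lib.P304.Meas

/-!
# P304: `R (k) ≤ R (k + 1)`
-/

namespace Vale.Agent.Lib.P304

open MeasureTheory

variable {X : Type} [MetricSpace X] (x0 : X) {n : ℕ}

/-- the simulating randomized policy. -/
noncomputable def simPolicy (A : RandPolicy (Ext x0) (n + 2)) (s : Fin (n + 1) → X) :
    RandPolicy X (n + 1) where
  Ω := A.Ω
  mΩ := A.mΩ
  μ := A.μ
  prob := A.prob
  pol := fun ω => sim x0 (A.pol ω) 1 (List.ofFn s)
  meas := by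
    intro h
    let _ := A.mΩ
    exact measurable_sim x0 h A.pol (fun _ => 1) (List.ofFn s) A.meas (fun π => by
      by_cases hπ : (1 : Equiv.Perm (Fin (n + 2))) = π
      · have : ((fun _ : A.Ω => (1 : Equiv.Perm (Fin (n + 2)))) ⁻¹' {π}) = Set.univ := by
          ext ω; simp [hπ]
        rw [this]; exact MeasurableSet.univ
      · have : ((fun _ : A.Ω => (1 : Equiv.Perm (Fin (n + 2)))) ⁻¹' {π}) = ∅ := by
          ext ω; simp [hπ]
        rw [this]; exact MeasurableSet.empty)

theorem competitive_sim (A : RandPolicy (Ext x0) (n + 2)) (s : Fin (n + 1) → X) (c : ℝ)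
    (hc : 0 ≤ c) (h : IsCompetitive A (ext x0 s) c) : IsCompetitive (simPolicy x0 A s) s c := by
  obtain ⟨B, hB⟩ := h
  refine ⟨B, fun σ => ?_⟩
  have h1 := hB (expand x0 (List.ofFn s) σ)
  have h2 : (simPolicy x0 A s).expCost s σ ≤ A.expCost (ext x0 s) (expand x0 (List.ofFn s) σ) := by
    unfold RandPolicy.expCost
    let _ := A.mΩ
    apply lintegral_mono
    intro ω
    apply ENNReal.ofReal_le_ofReal
    have := sim_cost x0 σ (A.pol ω) 1 (List.ofFn s) s (ext x0 s) (fun i => by
      rw [List.mem_ofFn]; exact ⟨i, rfl⟩)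
    rw [pot_self, zero_add] at this
    exact this
  refine h2.trans (h1.trans ?_)
  apply ENNReal.ofReal_le_ofReal
  have := opt_expand_le x0 s (List.ofFn s) σ
  nlinarith

theorem rho_le (s : Fin (n + 1) → X) : rho s ≤ rho (ext x0 s) := by
  unfold rho
  refine le_iInf₂ fun c hc => ?_
  obtain ⟨A, hA⟩ := hc
  exact iInf₂_le c ⟨simPolicy x0 A s, competitive_sim x0 A s c c.2 hA⟩

theorem R_mono (n : ℕ) : R (n + 1) ≤ R (n + 2) := by
  unfold R
  refine iSup_le fun X => iSup_le fun inst => iSup_le fun hX => iSup_le fun s => ?_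
  obtain ⟨f, hf⟩ := hX
  have hX' : ∃ g : Fin (n + 2 + 1) → Ext (s 0), Function.Injective g := by
    refine ⟨Fin.snoc (α := fun _ => Ext (s 0)) (fun i => inX (s 0) (f i)) (pt (s 0)), ?_⟩
    intro a b hab
    induction a using Fin.lastCases with
    | last =>
      induction b using Fin.lastCases with
      | last => rfl
      | cast b =>
        simp only [Fin.snoc_last, Fin.snoc_castSucc] at hab
        exact absurd hab.symm (inX_ne_pt _ _)
    | cast a =>
      induction b using Fin.lastCases with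
      | last =>
        simp only [Fin.snoc_last, Fin.snoc_castSucc] at hab
        exact absurd hab (inX_ne_pt _ _)
      | cast b =>
        simp only [Fin.snoc_castSucc] at hab
        rw [hf (inX_injective _ hab)]
  refine (rho_le (s 0) s).trans ?_
  exact le_iSup_of_le (Ext (s 0)) (le_iSup_of_le inferInstance (le_iSup_of_le hX'
    (le_iSup_of_le (ext (s 0) s) le_rfl)))

theorem R_monotone (k k' : ℕ) (hk : 1 ≤ k) (h : k ≤ k') : R k ≤ R k' := by
  induction k', h using Nat.le_induction with
  | base => exact le_rfl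
  | succ m hm ih =>
    obtain ⟨a, rfl⟩ : ∃ a, m = a + 1 := ⟨m - 1, by omega⟩
    exact ih.trans (R_mono a)

end Vale.Agent.Lib.P304
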