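import Vale.Agent.Lib.P304.Sim

/-!
# P304: the number of repetitions is large enough
-/

namespace Vale.Agent.Lib.P304

variable {X : Type} [MetricSpace X] 

theorem dist_le_sum_map (L : List X) (r y : X) (hy : y ∈ L) :
    dist y r ≤ (L.map fun y => dist y r).sum := by
  induction L with
  | nil => simp at hy
  | cons a L ih =>
    have hnn : 0 ≤ (L.map fun y => dist y r).sum :=
      List.sum_nonneg (by
        intro x hx
        obtain ⟨z, _, rfl⟩ := List.mem_map.1 hx
        exact dist_nonneg)
    simp only [List.map_cons, List.sum_cons]
    rcases List.mem_cons.1 hy with h | h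
    · subst h; linarith
    · have := ih h
      have := dist_nonneg (x := a) (y := r)
      linarith

theorem le_mult (L : List X) (r y : X) (hy : y ∈ L) : 2 * dist y r ≤ (mult L r : ℝ) := by
  have h1 := dist_le_sum_map L r y hy
  have h2 := Nat.le_ceil (2 * (L.map fun y => dist y r).sum)
  unfold mult
  push_cast
  linarith

end Vale.Agent.Lib.P304
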