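import Vale.Agent.Lib.P304.Basic

/-!
# P304: the matching potential between real and virtual servers
-/

namespace Vale.Agent.Lib.P304

open Finset

variable {Y : Type} [MetricSpace Y] {N : ℕ}

/-- the potential: real server `i` is matched with the virtual server `τ i`. -/
noncomputable def pot (τ : Equiv.Perm (Fin N)) (y v : Fin N → Y) : ℝ :=
  ∑ i, dist (y i) (v (τ i))

theorem pot_nonneg (τ : Equiv.Perm (Fin N)) (y v : Fin N → Y) : 0 ≤ pot τ y v :=
  Finset.sum_nonneg fun _ _ => dist_nonneg

theorem pot_self (y : Fin N → Y) : pot 1 y y = 0 := by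
  simp [pot]

/-- a virtual move changes the potential by at most its length. -/
theorem pot_step (τ : Equiv.Perm (Fin N)) (y v : Fin N → Y) (j : Fin N) (r : Y) :
    pot τ y (Function.update v j r) ≤ pot τ y v + dist (v j) r := by
  unfold pot
  rw [← Finset.add_sum_erase _ _ (Finset.mem_univ (τ.symm j)),
    ← Finset.add_sum_erase Finset.univ (fun i => dist (y i) (v (τ i))) (Finset.mem_univ (τ.symm j))]
  have h1 : ∑ i ∈ Finset.univ.erase (τ.symm j), dist (y i) (Function.update v j r (τ i))
      = ∑ i ∈ Finset.univ.erase (τ.symm j), dist (y i) (v (τ i)) := by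
    apply Finset.sum_congr rfl
    intro i hi
    have : τ i ≠ j := by
      intro h
      apply (Finset.mem_erase.mp hi).1
      rw [← h]; simp
    rw [Function.update_of_ne this]
  rw [h1]
  simp only [Equiv.apply_symm_apply, Function.update_self]
  have := dist_triangle (y (τ.symm j)) (v j) r
  linarith

/-- serving requests by the virtual policy changes the potential by at most the cost. -/
theorem pot_run (τ : Equiv.Perm (Fin N)) (y : Fin N → Y) (ρ : List Y) :
    ∀ (δ : List Y → Fin N) (v : Fin N → Y), pot τ y (final δ v ρ) ≤ pot τ y v + cost δ v ρ := by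
  induction ρ with
  | nil => intro δ v; simp [final, cost]
  | cons r ρ ih =>
    intro δ v
    simp only [final, cost]
    have h1 := ih (fun h => δ (r :: h)) (Function.update v (δ [r]) r)
    have h2 := pot_step τ y v (δ [r]) r
    linarith

/-- if the virtual twin of `i` sits at `r`, the real server `i` can jump to `r` for free. -/
theorem pot_jump (τ : Equiv.Perm (Fin N)) (y v : Fin N → Y) (i : Fin N) (r : Y)
    (h : v (τ i) = r) : dist (y i) r + pot τ (Function.update y i r) v = pot τ y v := by
  unfold pot
  rw [← Finset.add_sum_erase _ _ (Finset.mem_univ i),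
    ← Finset.add_sum_erase Finset.univ (fun i => dist (y i) (v (τ i))) (Finset.mem_univ i)]
  have h1 : ∑ a ∈ Finset.univ.erase i, dist (Function.update y i r a) (v (τ a))
      = ∑ a ∈ Finset.univ.erase i, dist (y a) (v (τ a)) := by
    apply Finset.sum_congr rfl
    intro a ha
    rw [Function.update_of_ne (Finset.mem_erase.mp ha).1]
  rw [h1]
  simp [h]

/-- moving a real server costs at most twice its move, amortised. -/
theorem pot_default (τ : Equiv.Perm (Fin N)) (y v : Fin N → Y) (i : Fin N) (r : Y) :
    dist (y i) r + pot τ (Function.update y i r) v ≤ pot τ y v + 2 * dist (y i) r := by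
  unfold pot
  rw [← Finset.add_sum_erase _ _ (Finset.mem_univ i),
    ← Finset.add_sum_erase Finset.univ (fun i => dist (y i) (v (τ i))) (Finset.mem_univ i)]
  have h1 : ∑ a ∈ Finset.univ.erase i, dist (Function.update y i r a) (v (τ a))
      = ∑ a ∈ Finset.univ.erase i, dist (y a) (v (τ a)) := by
    apply Finset.sum_congr rfl
    intro a ha
    rw [Function.update_of_ne (Finset.mem_erase.mp ha).1]
  rw [h1]
  simp only [Function.update_self]
  have := dist_triangle r (y i) (v (τ i))
  have h2 := dist_comm r (y i)
  linarith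

/-- exchanging the twins of `i` and `l` is free when `l` and the twin of `i` sit at `p`. -/
theorem pot_swap (τ : Equiv.Perm (Fin N)) (y v : Fin N → Y) (i l : Fin N) (p : Y)
    (hv : v (τ i) = p) (hy : y l = p) : pot (τ * Equiv.swap i l) y v ≤ pot τ y v := by
  by_cases hil : i = l
  · subst hil
    rw [Equiv.swap_self]
    exact le_of_eq rfl
  unfold pot
  have hl : l ∈ Finset.univ.erase i := Finset.mem_erase.mpr ⟨fun h => hil h.symm, Finset.mem_univ _⟩
  rw [← Finset.add_sum_erase _ _ (Finset.mem_univ i), ← Finset.add_sum_erase _ _ hl,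
    ← Finset.add_sum_erase Finset.univ (fun i => dist (y i) (v (τ i))) (Finset.mem_univ i),
    ← Finset.add_sum_erase (Finset.univ.erase i) (fun i => dist (y i) (v (τ i))) hl]
  have h1 : ∑ a ∈ (Finset.univ.erase i).erase l, dist (y a) (v ((τ * Equiv.swap i l) a))
      = ∑ a ∈ (Finset.univ.erase i).erase l, dist (y a) (v (τ a)) := by
    apply Finset.sum_congr rfl
    intro a ha
    have ha1 : a ≠ l := (Finset.mem_erase.mp ha).1
    have ha2 : a ≠ i := (Finset.mem_erase.mp (Finset.mem_erase.mp ha).2).1
    rw [Equiv.Perm.mul_apply, Equiv.swap_apply_of_ne_of_ne ha2 ha1]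
  rw [h1]
  simp only [Equiv.Perm.mul_apply, Equiv.swap_apply_left, Equiv.swap_apply_right, hv, hy, dist_self]
  have := dist_triangle (y i) p (v (τ l))
  linarith

/-- the virtual twin of `l` goes to `p`, where `l` sits. -/
theorem pot_return (τ : Equiv.Perm (Fin N)) (y v : Fin N → Y) (l : Fin N) (p : Y)
    (hy : y l = p) : pot τ y (Function.update v (τ l) p) ≤ pot τ y v := by
  unfold pot
  apply Finset.sum_le_sum
  intro i _
  by_cases h : i = l
  · subst h
    simp [hy]
  · have : τ i ≠ τ l := fun h' => h (τ.injective h')
    rw [Function.update_of_ne this]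

end Vale.Agent.Lib.P304
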