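import Vale.Agent.Lib.P304.Pot
import Vale.Agent.Lib.P304.Ext

/-!
# P304: simulating a policy with one more server on the extended space
-/

namespace Vale.Agent.Lib.P304

variable {X : Type} [MetricSpace X] (x0 : X) {n : ℕ}

/-- positions of `n + 1` servers in `X`, plus one more server at the extra point. -/
def ext (y : Fin (n + 1) → X) : Fin (n + 2) → Ext x0 :=
  Fin.snoc (α := fun _ => Ext x0) (fun i => inX x0 (y i)) (pt x0)

theorem ext_last (y : Fin (n + 1) → X) : ext x0 y (Fin.last (n + 1)) = pt x0 := by
  simp [ext]

theorem ext_castSucc (y : Fin (n + 1) → X) (i : Fin (n + 1)) :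
    ext x0 y i.castSucc = inX x0 (y i) := by
  simp [ext]

theorem ext_update (y : Fin (n + 1) → X) (i : Fin (n + 1)) (r : X) :
    ext x0 (Function.update y i r) = Function.update (ext x0 y) i.castSucc (inX x0 r) := by
  funext a
  refine Fin.lastCases ?_ (fun b => ?_) a
  · rw [ext_last, Function.update_of_ne (Fin.castSucc_lt_last i).ne', ext_last]
  · rw [ext_castSucc]
    by_cases h : b = i
    · subst h; simp
    · rw [Function.update_of_ne h, Function.update_of_ne (fun h' => h (Fin.castSucc_injective _ h')),
        ext_castSucc]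

/-- index of a real server. -/
def toK (i : Fin (n + 2)) : Fin (n + 1) :=
  if h : i = Fin.last (n + 1) then 0 else i.castPred h

theorem castSucc_toK {i : Fin (n + 2)} (h : i ≠ Fin.last (n + 1)) : (toK i).castSucc = i := by
  simp [toK, h]

/-- the request `r` and the extra point, alternating `m` times. -/
def block (r : X) : ℕ → List (Ext x0)
  | 0 => []
  | m + 1 => inX x0 r :: pt x0 :: block r m

/-- number of repetitions; `L` lists all points where a server can be. -/
noncomputable def mult (L : List X) (r : X) : ℕ :=
  ⌈2 * (L.map fun y => dist y r).sum⌉₊ + 1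

/-- the request sequence on the extended space. -/
noncomputable def expand : List X → List X → List (Ext x0)
  | _, [] => []
  | L, r :: σ => block x0 r (mult L r) ++ expand (r :: L) σ

/-- reading a block: which real server moves, and the new matching. -/
def scan (r : X) : ℕ → (List (Ext x0) → Fin (n + 2)) → Equiv.Perm (Fin (n + 2)) →
    Fin (n + 2) × Equiv.Perm (Fin (n + 2))
  | 0, _, τ => (0, τ)
  | m + 1, δ, τ =>
    if δ [inX x0 r] ≠ τ (Fin.last (n + 1)) then (τ.symm (δ [inX x0 r]), τ)
    else if δ [inX x0 r, pt x0] ≠ τ (Fin.last (n + 1)) then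
      (τ.symm (δ [inX x0 r, pt x0]),
        τ * Equiv.swap (τ.symm (δ [inX x0 r, pt x0])) (Fin.last (n + 1)))
    else scan r m (fun h => δ (inX x0 r :: pt x0 :: h)) τ

theorem scan_ne_last (r : X) (m : ℕ) : ∀ (δ : List (Ext x0) → Fin (n + 2))
    (τ : Equiv.Perm (Fin (n + 2))), (scan x0 r m δ τ).1 ≠ Fin.last (n + 1) := by
  induction m with
  | zero =>
    intro δ τ
    simp only [scan]
    exact (Fin.last_pos).ne
  | succ m ih =>
    intro δ τ
    simp only [scan]
    split_ifs with h1 h2
    · intro h
      apply h1
      rw [← h]; simp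
    · intro h
      apply h2
      rw [← h]; simp
    · exact ih _ _

/-- the simulating policy with `n + 1` servers on `X`. -/
noncomputable def sim : (List (Ext x0) → Fin (n + 2)) → Equiv.Perm (Fin (n + 2)) → List X →
    List X → Fin (n + 1)
  | _, _, _, [] => 0
  | δ, τ, L, [r] => toK (scan x0 r (mult L r) δ τ).1
  | δ, τ, L, r :: r2 :: h =>
    sim (fun g => δ (block x0 r (mult L r) ++ g)) (scan x0 r (mult L r) δ τ).2 (r :: L) (r2 :: h)

end Vale.Agent.Lib.P304
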