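import Vale.Agent.Lib.P304.Block
import Vale.Agent.Lib.P304.Mult

/-!
# P304: cost of the simulating policy
-/

namespace Vale.Agent.Lib.P304

variable {X : Type} [MetricSpace X] (x0 : X) {n : ℕ}

/-- the simulating policy pays at most what the simulated policy pays. -/
theorem sim_cost (σ : List X) : ∀ (δ : List (Ext x0) → Fin (n + 2))
    (τ : Equiv.Perm (Fin (n + 2))) (L : List X) (y : Fin (n + 1) → X) (v : Fin (n + 2) → Ext x0),
    (∀ i, y i ∈ L) →
    cost (sim x0 δ τ L) y σ ≤ pot τ (ext x0 y) v + cost δ v (expand x0 L σ) := by
  induction σ with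
  | nil =>
    intro δ τ L y v _
    simp only [cost, expand, add_zero]
    exact pot_nonneg _ _ _
  | cons r σ ih =>
    intro δ τ L y v hL
    set m := mult L r with hm
    set sc := scan x0 r m δ τ with hsc
    set i := toK sc.1 with hi
    have hne : sc.1 ≠ Fin.last (n + 1) := scan_ne_last x0 r m δ τ
    have hic : i.castSucc = sc.1 := castSucc_toK hne
    have hsim1 : sim x0 δ τ L [r] = i := by
      simp only [sim]
      rfl
    have hcost : cost (sim x0 δ τ L) y (r :: σ)
        = dist (y i) r + cost (sim x0 (fun g => δ (block x0 r m ++ g)) sc.2 (r :: L))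
            (Function.update y i r) σ := by
      simp only [cost]
      rw [hsim1]
      congr 1
      apply cost_congr
      intro g hg
      cases g with
      | nil => exact absurd rfl hg
      | cons a g =>
        simp only [sim]
        rfl
    have hexp : expand x0 L (r :: σ) = block x0 r m ++ expand x0 (r :: L) σ := rfl
    rw [hcost, hexp, cost_append]
    have hL1 : ∀ a, Function.update y i r a ∈ r :: L := by
      intro a
      by_cases ha : a = i
      · rw [ha, Function.update_self]
        exact List.mem_cons_self
      · rw [Function.update_of_ne ha]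
        exact List.mem_cons_of_mem _ (hL a)
    have hih := ih (fun g => δ (block x0 r m ++ g)) sc.2 (r :: L) (Function.update y i r)
      (final δ v (block x0 r m)) hL1
    have h0 : ext x0 y 0 = inX x0 (y 0) := by
      have h00 : (0 : Fin (n + 2)) = (0 : Fin (n + 1)).castSucc := rfl
      rw [h00, ext_castSucc]
    have hb := block_ineq x0 r m δ τ (ext x0 y) v 0 le_rfl (ext_last x0 y) (by
      rw [h0, dist_inX, zero_add]
      exact le_mult L r (y 0) (hL 0))
    rw [← hsc] at hb
    have e1 : Function.update (ext x0 y) sc.1 (inX x0 r) = ext x0 (Function.update y i r) := by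
      rw [ext_update, hic]
    have e2 : dist (ext x0 y sc.1) (inX x0 r) = dist (y i) r := by
      rw [← hic, ext_castSucc, dist_inX]
    rw [e1, e2] at hb
    linarith

end Vale.Agent.Lib.P304
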